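import Vale.Agent.P327.Main
import Vale.Agent.P327.Bridge

/-!
P327: the partial order of the Turing degrees has no nontrivial automorphism.
-/

namespace Vale.Agent.Results.P327.Rigidity

open Vale.Agent.P327

/-- Every order automorphism of the Turing degrees of sets of natural numbers is the identity. -/
theorem result : ∀ π : SetDegree ≃o SetDegree, π = OrderIso.refl SetDegree :=
  setDegree_rigid_of auto_eqv_id

end Vale.Agent.Results.P327.Rigidity
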